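import Vale.Agent.P354F2.Parts2

/-!
The construction of the frame along the rays for the Kerr metric.
-/

namespace Vale.Agent.P354FL

open Vale.Agent.P354XG Vale.Agent.P354XG.Geo Vale.Agent.P354XD Vale.Agent.P354XR Vale.Agent.P354Z
  Vale.Agent.P354YK Vale.Agent.P354F2

variable {A : Type} [CommRing A] [Algebra ℂ A]

/-- The first step for a null frame in which n is replaced by a field T. -/
theorem g1_rot {S : Geo A} (h : S.Is) {F : Fr A} (N : F.Nl S) {T : Vec A} {b : A}
    (e1 : S.dot F.l T = -1) (e2 : S.dot F.m T = -S.c b) (e3 : S.dot F.mb T = -b) :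
    Fr.g1 S { F with n := T } 1 (hf A) 1 = ⟨F.l, F.n + (-b) • F.m + (-S.c b) • F.mb +
      (b * S.c b) • F.l, F.m + (-S.c b) • F.l, F.mb + (-b) • F.l⟩ := by
  have M : Null S F.l F.n F.m F.mb := N
  have t := two_hf (A := A)
  have s := M.span h T
  rw [h.dot_comm T F.l, h.dot_comm T F.mb, h.dot_comm T F.m, e1, e2, e3] at s
  generalize -S.dot T F.n = x at s
  have q : S.dot T T = 2 * (b * S.c b - x) := by
    rw [s]
    simp only [dot_add_left, dot_add_right, dot_smul_left, dot_smul_right, M.ll, M.nn, M.mm,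
      M.ln, M.lm, M.nm, M.mmb, M.mbmb h, M.lmb h, M.nmb h, M.nl h, M.ml h, M.mn h, M.mbl h,
      M.mbn h, M.mbm h]
    ring
  have l : Fr.gl S { F with n := T } (hf A) = F.l := by
    simp only [Fr.gl, M.ll, zero_mul, zero_smul, add_zero]
  have n : Fr.gn S { F with n := T } 1 (hf A) 1 = T + (b * S.c b - x) • F.l := by
    simp only [Fr.gn, e1, q]
    match_scalars
    · linear_combination t
    · linear_combination (b * S.c b - x) * (2 * hf A + 1) * t
  simp only [Fr.g1, l, n, dot_add_right, dot_smul_right, e2, e3, M.ml h, M.mbl h, mul_zero,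
    add_zero, zero_smul, Fr.mk.injEq, true_and, and_true]
  rw [s]
  module

variable {K : Hp A} {p : Pm A}

theorem prj_bs (K : Hp A) (p : Pm A) : K.prj (K.d 0) = K.prj ((kk K p).V 1 0 0 0 0 0) ∧
    K.prj K.P = K.prj ((kk K p).V 0 0 1 0 0 0) ∧ K.prj K.Q = K.prj ((kk K p).V 0 0 0 1 0 0) := by
  refine ⟨?_, ?_, ?_⟩ <;> funext a <;>
    simp only [Hp.prj, dv, KC.V_ap, zero_mul, one_mul, add_zero, zero_add] <;> rfl

theorem kid : KID := by
  rintro A _ _ K p _ k q j ⟨Γ, rfl⟩ hS
  have t := two_hf (A := A)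
  have W := frO_wn k q Γ
  have G := ghp_frO k q hS W
  have kc := kk_is k q
  have hN := k.hN
  have r : (kk K p).N = K.N ∧ (kk K p).a = p.a ∧ (kk K p).s = K.kc.s ∧ (kk K p).sb = K.kc.sb :=
    ⟨rfl, rfl, rfl, rfl⟩
  obtain ⟨bT, bP, bQ⟩ := prj_bs K p
  set S := K.geo (gO K p) Γ
  have M : Null S (frO K p).l (frO K p).n (frO K p).m (frO K p).mb := W.nl
  have lT : 2 * S.dot (frO K p).l (K.prj (K.d 0)) = -K.N := by
    rw [bT]
    refine (congrArg (2 * ·) (dot_O k Γ ..)).trans ?_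
    simp only [gBo, KC.qf, r]
    linear_combination -K.N * t
  have cb : S.c (bK K p) = K.Ni * (ii A * p.a * K.kc.s * (kk K p).zb) := by
    show K.c _ = _
    simp only [bK, map_neg, map_mul, k.c_Ni, q.ca, show K.c (ii A) = _ from kc.c_ii,
      show K.c K.kc.sb = K.kc.s from kc.c_sb, show K.c (kk K p).z = _ from kc.c_z]
    ring
  have f : f1 K p S = _ := g1_rot hS W.nl (T := (2 * K.Ni) • K.prj (K.d 0)) (b := bK K p)
    (by rw [dot_smul_right]; linear_combination K.Ni * lT - k.hN)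
    (by
      rw [dot_smul_right, bT, cb]
      refine (congrArg (2 * K.Ni * ·) (dot_O k Γ ..)).trans ?_
      simp only [gBo, KC.qf, r]
      linear_combination -(K.Ni * (ii A * p.a * K.kc.s * (kk K p).zb)) * t)
    (by
      rw [dot_smul_right, bT, bK]
      refine (congrArg (2 * K.Ni * ·) (dot_O k Γ ..)).trans ?_
      simp only [gBo, KC.qf, r]
      linear_combination (K.Ni * (ii A * p.a * K.kc.sb * (kk K p).z)) * t)
  have d : S.dot (f1 K p S).m (f1 K p S).mb = 1 ∧ S.dot (f1 K p S).m (f1 K p S).m = 0 ∧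
      S.dot (f1 K p S).mb (f1 K p S).mb = 0 := by
    simp only [f, dot_add_left, dot_add_right, dot_smul_left, dot_smul_right, M.ll, M.mm, M.lm,
      M.mmb, M.mbmb hS, M.lmb hS, M.ml hS, M.mbl hS, mul_zero, add_zero, and_self]
  have b : fb K p S (hf A) 1 = frO K p := by
    simp only [fb, P354F2.rot, Fr.g2, d, rn]
    simp only [f]
    show _ = (⟨(frO K p).l, (frO K p).n, (frO K p).m, (frO K p).mb⟩ : Fr A)
    simp only [Fr.mk.injEq, true_and]
    refine ⟨?_, ?_, ?_⟩ <;> module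
  have th : ((frO K p).ghp S).th = oth (kk K p) := congrArg GHP.th G
  have u : ∀ Z, S.nab (ul K p) Z =
      S.nab (hat S (frO K p).l (frO K p).n (frO K p).m (frO K p).mb (frO K p).l) Z := fun Z => by
    have e : K.kc.V (-(K.N * p.h1)) K.N 0 0 0 0 = oth (kk K p) := Derivation.ext fun f => by
      rw [oth_ap, R_ap j, KC.V_ap]; simp only [Hp.kc, kk]; ring
    have a : S.act (ul K p) = oth (kk K p) := Derivation.ext fun f => by
      have := k.act_prj (gO K p) Γ (-(K.N * p.h1)) K.N 0 0 0 0 f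
      rwa [e] at this
    rw [nab, a, ← th]; rfl
  refine ⟨d.1, d.2.1, d.2.2, b, ?_, ?_, G, ⟨k, q, ⟨_, Γ, rfl⟩, hS, W, th, congrArg GHP.ka G, lT⟩,
    ?_, ?_, congrFun (cm_V k ..) 2, congrFun (cm_V k ..) 3⟩
  · rw [so, b, om, u, (WNull.gauge hS W _).2, mul_zero]
  · rw [t0, u]; exact congrArg GHP.ta' G
  · show -(2 * K.Ni * _) = _
    rw [bP]
    refine (congrArg (fun x => -(2 * K.Ni * x)) (dot_O k Γ ..)).trans ?_
    simp only [gBo, KC.qf, r]
    linear_combination ii A * p.a * K.kc.sb * (K.N * K.Ni * t + hN)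
  · show -(2 * K.Ni * _) = _
    rw [bQ]
    refine (congrArg (fun x => -(2 * K.Ni * x)) (dot_O k Γ ..)).trans ?_
    simp only [gBo, KC.qf, r]
    linear_combination -(ii A * p.a * K.kc.s) * (K.N * K.Ni * t + hN)

end Vale.Agent.P354FL
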