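import Vale.Agent.P354F2.Cg
import Vale.Agent.P354FL.Kid

/-!
The frame along the rays is close to the frame of Kerr.
-/

namespace Vale.Agent.P354FL

open Vale.Agent.P354XG Vale.Agent.P354XG.Geo Vale.Agent.P354XD Vale.Agent.P354XR Vale.Agent.P354Z
  Vale.Agent.P354XI Vale.Agent.P354F2
open Vale.Agent.P354BO (Oq Gz Gp oq_e0)
open Vale.Agent.P354YK (frO gO gBo out la Og fv_rs)
open Vale.Agent.P354RI (ex)

variable {J ι : Type} [Fintype ι] {O : J → Set E6}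

/-- A family of charts with a geometry and with Kerr. -/
structure Gn (E : Ev ι O) (K : ∀ j, Hp (Sm (on (O j)))) (p : ∀ j, Pm (Sm (on (O j))))
    (S S0 : ∀ j, Geo (Sm (on (O j)))) : Prop where
  mu : ∀ j, E.μ j ^ 2 ≤ 1
  mem : ∀ j, E.x j ∈ O j
  bs : ∀ j, Bs (K j) (p j) (S j)
  k0 : ∀ j, ∃ Γ, S0 j = (K j).geo (gO (K j) (p j)) Γ
  is0 : ∀ j, (S0 j).Is
  gz : ∀ n, Gz E.X E.x n K
  gp : ∀ n, Gp E.X E.x n p
  d : ∀ i n ν f, Oq E.X E.x (n + 1) ν f → Oq E.X E.x n ν fun j => (K j).d i (f j)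
  c : ∀ n ν f, Oq E.X E.x n ν f → Oq E.X E.x n ν fun j => (K j).c (f j)
  xe : ∀ j a f, E.X j a (ex f) = ex f * E.X j a f

variable {E : Ev ι O} {K : ∀ j, Hp (Sm (on (O j)))} {p : ∀ j, Pm (Sm (on (O j)))}
  {S S0 : ∀ j, Geo (Sm (on (O j)))} {n : ℕ} {s u k : ∀ j, Sm (on (O j))}
  {qd : ∀ j, Sm (on (O j)) → Sm (on (O j))}

theorem low {A : Type} [CommRing A] (φ : A →+* ℂ) {y s k : A} (a : ‖φ (y - 1)‖ ≤ 1 / 4)
    (b : ‖φ (s * s - 1)‖ ≤ 1 / 4) (r : 0 ≤ (φ s).re) (e : 2 * k ^ 2 * s ^ 2 = y + s) :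
    1 / 2 ≤ ‖φ s‖ ∧ 1 / 2 ≤ ‖φ (y + s)‖ ∧ 1 / 2 ≤ ‖φ k‖ ∧ 1 / 2 ≤ ‖φ (2 * (s * s))‖ := by
  replace e := congrArg φ e
  simp only [map_sub, map_add, map_mul, map_pow, map_one, map_ofNat] at a b e ⊢
  generalize φ y = y, φ s = s, φ k = k at *
  have b1 := (abs_le.1 ((abs_norm_sub_norm_le _ _).trans b))
  have a1 := (abs_le.1 ((Complex.abs_re_le_norm _).trans a)).1
  have a2 := Complex.re_le_norm (y + s)
  have a3 := congrArg norm e
  simp only [norm_mul, norm_pow, norm_one, Complex.norm_ofNat, Complex.sub_re, Complex.one_re,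
    Complex.add_re] at b1 a1 a2 a3 ⊢
  have := norm_nonneg s
  have := norm_nonneg k
  refine ⟨by nlinarith, by linarith, ?_, by linarith⟩
  by_contra c
  have : ‖k‖ ^ 2 ≤ 1 / 4 := by nlinarith
  nlinarith

namespace Gn
variable (h : Gn E K p S S0)
include h

theorem sL (j : J) : (S j).L = (K j).L := by
  obtain ⟨g, Γ, e⟩ := (h.bs j).geo
  rw [e]; rfl

theorem st : St E S S0 where
  same j := by
    obtain ⟨g, Γ, e⟩ := (h.bs j).geo
    obtain ⟨Γ0, e0⟩ := h.k0 j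
    rw [e, e0]; exact ⟨rfl, rfl, rfl, rfl⟩
  is j := (h.bs j).hS
  is0 := h.is0
  L a n ν f b := by
    have z := h.gz n
    have d := fun i => h.d i n ν f b
    exact (((((oq_e0 a).mul (d 0)).add ((z.om a).1.mul (d 1))).add
      (((Oq.hf.mul z.ri).mul (z.om a).2.1).mul ((z.z4.mul (d 3)).sub (z.z5.mul (d 2))))).add
      (((Oq.hf.mul z.ri).mul (z.om a).2.2).mul ((z.z2.mul (d 5)).sub (z.z3.mul (d 4))))).congr
        fun j => by rw [h.sL, Hp.L_ap, Hp.P_ap, Hp.Q_ap]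
  H n ν f b := (((h.gz n).z2.mul (h.d 2 n ν f b)).add ((h.gz n).z3.mul (h.d 3 n ν f b))).congr
    fun j => by rw [(h.bs j).cHB.2.1, Hp.H_ap]
  Hb n ν f b := (((h.gz n).z4.mul (h.d 4 n ν f b)).add ((h.gz n).z5.mul (h.d 5 n ν f b))).congr
    fun j => by rw [(h.bs j).cHB.2.2, Hp.B_ap]
  c n ν f b := (h.c n ν f b).congr fun j => by rw [(h.bs j).cHB.1]

def kid (j : J) :=
  P354FL.kid _ (K j) (p j) (S0 j) (h.bs j).is (h.bs j).pis (h.bs j).j1 (h.k0 j) (h.is0 j)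

theorem prj {e1 e2 e3 e4 e5 e6 : ∀ j, Sm (on (O j))} (h1 : Oq E.X E.x n 1 e1)
    (h2 : Oq E.X E.x n 1 e2) (h3 : Oq E.X E.x n 1 e3) (h4 : Oq E.X E.x n 1 e4) (a : Fin 4) :
    Oq E.X E.x n 1 fun j =>
      (K j).prj ((kk (K j) (p j)).V (e1 j) (e2 j) (e3 j) (e4 j) (e5 j) (e6 j)) a :=
  have z := h.gz n
  (((((h1.sub (h2.mul (h.gp n).h1)).mul (oq_e0 a)).add (h2.mul (z.om a).1)).add
    (h3.mul (z.z1.mul (z.om a).2.2))).add (h4.mul (z.z1.mul (z.om a).2.1))).congr fun j => by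
      rw [kk_V, (h.bs j).is.prj_V, (h.bs j).j1]; ring

theorem kc : (Oq E.X E.x n 1 fun j => (kk (K j) (p j)).z) ∧
    (Oq E.X E.x n 1 fun j => (kk (K j) (p j)).zb) ∧ (Oq E.X E.x n 1 fun j => (kk (K j) (p j)).W) ∧
    Oq E.X E.x n 1 fun j => (kk (K j) (p j)).De :=
  have z := h.gz n
  have q := h.gp n
  have x := (Oq.ii.mul q.a).mul z.kc.1
  ⟨q.sg.mul (z.z1.add x), q.sg.mul (z.z1.sub x), (z.z1.mul z.z1).add (q.a.mul q.a),
    ((z.z1.mul z.z1).sub ((Oq.two.mul q.M).mul z.z1)).add (q.a.mul q.a)⟩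

theorem fro : Cl E n (fun j => frO (K j) (p j)) fun j => frO (K j) (p j) :=
  have z := h.gz n
  have q := h.gp n
  have ⟨a, b, c, d⟩ := h.kc (n := n)
  have i := Oq.ii.mul q.a
  ⟨fun e => .refl (h.prj .zero z.kc.2.2.2 .zero .zero e),
    fun e => .refl (h.prj (((Oq.two.mul z.Ni).mul q.sg).mul c) ((z.Ni.mul q.sg).mul d).neg
      (((i.mul z.kc.2.1).mul z.Ni).mul q.sg) (((i.mul z.kc.2.2.1).mul z.Ni).mul q.sg).neg e),
    fun e => .refl (h.prj ((i.mul z.kc.2.1).mul b) .zero .zero b e),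
    fun e => .refl (h.prj ((i.mul z.kc.2.2.1).mul a).neg .zero a .zero e)⟩

theorem mg (d : ∀ a b, Oq E.X E.x n E.μ fun j => (S j).g a b - (S0 j).g a b) : Mg E n S S0 :=
  fun a b => .of h.mu (by
    have z := h.gz n
    have q := h.gp n
    obtain ⟨_, _, _⟩ := z.c q a
    obtain ⟨_, _, _⟩ := z.c q b
    obtain ⟨_, _, _, -⟩ := z.kc
    have := (z.om a).1
    have := (z.om b).1
    have : Oq E.X E.x n 1 fun j => (K j).kc.r := z.z1
    obtain ⟨_, _, _, -⟩ := q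
    refine Oq.congr (f := fun j => gO (K j) (p j) a b) ?_ fun j => by
      obtain ⟨Γ, e⟩ := h.k0 j
      rw [e]; rfl
    simp only [gO, gBo, KC.qf, kk]
    with_reducible repeat' first
      | assumption | exact Oq.ii | exact Oq.hf | exact Oq.two | apply Oq.neg | apply Oq.mul
      | apply Oq.add | apply Oq.sub) (d a b)

theorem f1 (m : Mg E n S S0) :
    Cl E n (fun j => f1 (K j) (p j) (S j)) fun j => f1 (K j) (p j) (S0 j) :=
  m.g1 (F := fun j => pre (K j) (p j)) (G := fun j => pre (K j) (p j))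
    ⟨h.fro.l, .smul (.refl (Oq.two.mul (h.gz n).Ni)) fun a => .refl ((oq_e0 a).congr fun j =>
      ((h.bs j).is.tco a).1), h.fro.m, h.fro.mb⟩

variable (e : ∀ j, (P354F2.f1 (K j) (p j) (S j)).E2 (S j) (s j) (u j) (k j))
include e

theorem qs (m : Mg E n S S0) : (Cg E n (fun j => (S j).dot (P354F2.f1 (K j) (p j) (S j)).m
    (P354F2.f1 (K j) (p j) (S j)).mb) fun _ => 1) ∧ Cg E n (fun j => s j * s j) fun _ => 1 :=
  have b := h.f1 m
  have q := (m.dot b.m b.mb).tw fun j => (h.kid j).1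
  ⟨q, (((q.mul q).sub ((m.dot b.m b.m).mul (m.dot b.mb b.mb))).fr fun j => by
    linear_combination (e j).sq).tw fun j => by rw [(h.kid j).2.1]; ring⟩

theorem uk (m : Mg E n S S0) (r : ∀ j, 0 ≤ rv (s j) (E.x j) ∧ 0 ≤ rv (k j) (E.x j))
    (a : ∀ j, ‖fv ((S j).dot (P354F2.f1 (K j) (p j) (S j)).m (P354F2.f1 (K j) (p j) (S j)).mb - 1)
      (E.x j)‖ ≤ 1 / 4 ∧ ‖fv (s j * s j - 1) (E.x j)‖ ≤ 1 / 4) :
    (Cg E n u fun _ => hf _) ∧ Cg E n k fun _ => 1 := by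
  obtain ⟨q, ss⟩ := h.qs e m
  have t := fun j => two_hf (A := Sm (on (O j)))
  have l : ∀ j, 1 / 2 ≤ ‖fv (s j) (E.x j)‖ ∧ 1 / 2 ≤ ‖fv ((S j).dot (P354F2.f1 (K j) (p j) (S j)).m
      (P354F2.f1 (K j) (p j) (S j)).mb + s j) (E.x j)‖ ∧ 1 / 2 ≤ ‖fv (k j) (E.x j)‖ ∧
      1 / 2 ≤ ‖fv (2 * (s j * s j)) (E.x j)‖ := fun j =>
    low (evO ⟨_, h.mem j⟩) (a j).1 (a j).2 (r j).1 (e j).hk
  have c : (0 : ℝ) < 1 / 2 := by norm_num
  have s1 := Cg.root h.mu h.mem c (fun j => (l j).1) (fun j => (r j).1) ss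
  refine ⟨.of h.mu .hf (Oq.div c (fun j => (l j).2.1) (q.a.add s1.a) n le_rfl
    ((Oq.hf.mul (q.d.add s1.d)).neg.congr fun j => ?_)),
    .root h.mu h.mem c (fun j => (l j).2.2.1) (fun j => (r j).2) (.of h.mu .one
      (Oq.div c (fun j => (l j).2.2.2) (Oq.two.mul ss.a) n le_rfl
        (((q.d.add s1.d).sub (Oq.two.mul ss.d)).congr fun j => ?_)))⟩
  · linear_combination (e j).hu - t j
  · linear_combination (e j).hk

variable (m : Mg E (n + 2) S S0) (cu : Cg E (n + 2) u fun _ => hf _) (ck : Cg E (n + 2) k fun _ => 1)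
include m cu ck

omit e in
theorem fb : Cl E (n + 2) (fun j => fb (K j) (p j) (S j) (u j) (k j)) fun j => frO (K j) (p j) := by
  have b := h.f1 m
  have z := h.gz (n + 2)
  exact (h.st.rot (F := fun j => { (P354F2.f1 (K j) (p j) (S j)).g2 (S j) (u j) (k j) with
      l := (frO (K j) (p j)).l }) (G := fun j => { (P354F2.f1 (K j) (p j) (S0 j)).g2 (S0 j) (hf _) 1 with
      l := (frO (K j) (p j)).l }) ⟨h.fro.l, b.n,
    .smul ck (b.m.add (.smul ((m.dot b.m b.m).mul cu).neg b.mb)),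
    .smul ck (b.mb.add (.smul ((m.dot b.mb b.mb).mul cu).neg b.m))⟩
    (.refl (z.Ni.mul (((Oq.ii.mul (h.gp _).a).mul z.kc.2.2.1).mul h.kc.1)).neg)).tw
      fun j => (h.kid j).2.2.2.1

theorem mc : Mc E (n + 1) S S0 :=
  h.st.gam m (fun j => ((h.bs j).fb_wn (e j)).nl) (fun j => (h.kid j).2.2.2.2.2.2.2.1.wn.nl)
    ((h.fb m cu ck).le (Nat.le_succ _))

theorem fr2
    (q1 : (Oq E.X E.x (n + 1) E.μ fun j => so (K j) (p j) (S j) (u j) (k j)) →
      Oq E.X E.x (n + 1) E.μ fun j => qd j (so (K j) (p j) (S j) (u j) (k j)))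
    (q2 : (Oq E.X E.x (n + 1) E.μ fun j => P354F2.sq (K j) (p j) (S j) (qd j) ex (u j) (k j)) →
      Oq E.X E.x (n + 1) E.μ fun j => qd j (P354F2.sq (K j) (p j) (S j) (qd j) ex (u j) (k j))) :
    Cl E (n + 1) (fun j => fr2 (K j) (p j) (S j) (qd j) ex (u j) (k j)) fun j => frO (K j) (p j) := by
  have b := h.fb m cu ck
  have b1 := b.le (Nat.le_succ _)
  have m1 := m.le (Nat.le_succ _)
  have z := h.gz (n + 1)
  have ni := Cg.refl z.Ni
  have w : Co E (n + 1) (fun j => ul (K j) (p j)) fun j => ul (K j) (p j) := ⟨h.fro.l, .zero, .zero⟩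
  have fe' : Cg E (n + 1) (fun j => fe (K j) (p j) (S j) (qd j) ex (u j) (k j)) fun _ => 1 :=
    Cg.ex h.mu h.mem h.xe _ (q1 ((ni.mul (m1.dot (h.st.nab (h.mc e m cu ck) w b.m) b1.mb)).small
      fun j => by
        have := (h.kid j).2.2.2.2.1
        rwa [so, (h.kid j).2.2.2.1] at this)).neg
  have sq' := q2 ((ni.mul (((h.st.cc fe').mul (m1.dot (h.st.nab (h.mc e m cu ck) w b.n)
    b1.mb).neg).sub (.refl ((((Oq.ii.mul (h.gp _).a).mul h.kc.1).mul h.kc.1).mul z.kc.2.2.1).neg))).small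
      fun j => by
        rw [map_one, one_mul]
        exact mul_eq_zero_of_right _ (sub_eq_zero.2 (h.kid j).2.2.2.2.2.1))
  exact (h.st.rot (h.st.spn b1 fe') (.of h.mu .zero (sq'.congr fun _ => sub_zero _))).tw
    (G' := fun j => frO (K j) (p j)) fun j => by simp [P354F2.rot, spn, P354YK.rn]

end Gn

end Vale.Agent.P354FL
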