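import Vale.Agent.P354FL.Qd
import Vale.Agent.P354F2.Parts
import Vale.Agent.P354RI.Fun

/-!
QD: the algebraic properties of the quadrature, and the bounds.
-/

open scoped ContDiff
open Set Filter Topology

noncomputable section

namespace Vale.Agent.P354FL

open Vale.Agent.P354XG Vale.Agent.P354XD Vale.Agent.P354XR Vale.Agent.P354XI Vale.Agent.P354Z
open Vale.Agent.P354YK (cone_is fnO Sm2 fv_fnO fd_fnO fnO_T fnO_R)
open Vale.Agent.P354F2
open Vale.Agent.P354BO (Oq q2_succ)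
open Vale.Agent.P354RI (ex pd_ex cj_ex ex_neg)

/-! ### The anchor function -/

/-- The derivatives of the anchor function. -/
def bk (R : ℝ) (k : ℕ) : ℝ → ℝ := iteratedDeriv (k + 1) (be R)

theorem bk_cd (R : ℝ) (k : ℕ) : ContDiff ℝ ∞ (bk R k) := by
  rw [bk, iteratedDeriv_eq_iterate]
  exact (be_cd R).iterate_deriv (k + 1)

theorem bk_deriv (R : ℝ) (k : ℕ) : deriv (bk R k) = bk R (k + 1) := iteratedDeriv_succ.symm

theorem bk_left {R u : ℝ} (h : u < -R - 1 / 4) (k : ℕ) : bk R k u = if k = 0 then -1 else 0 := by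
  have e : be R =ᶠ[𝓝 u] fun u => -u := mem_of_superset (Iio_mem_nhds h) fun v hv => by
    show be R v = -v
    rw [be, Real.smoothTransition.one_of_one_le (by linarith [mem_Iio.1 hv])]; ring
  rw [bk, e.iteratedDeriv_eq, iteratedDeriv_succ', deriv_neg']
  split_ifs with k0
  · rw [k0, iteratedDeriv_zero]
  · obtain ⟨k, rfl⟩ := Nat.exists_eq_succ_of_ne_zero k0
    simp [iteratedDeriv_succ']

theorem bk_right {R u : ℝ} (h : -R < u) (k : ℕ) : bk R k u = 0 := by
  have e : be R =ᶠ[𝓝 u] fun _ => R := mem_of_superset (Ioi_mem_nhds h) fun v hv => by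
    show be R v = R
    rw [be, Real.smoothTransition.zero_of_nonpos (by linarith [mem_Ioi.1 hv])]; ring
  rw [bk, e.iteratedDeriv_eq]
  simp [iteratedDeriv_succ']

theorem bk_bd (R : ℝ) (k : ℕ) : ∃ C, 1 ≤ C ∧ ∀ u, |bk R k u| ≤ C := by
  obtain ⟨C, hC⟩ := (isCompact_Icc (a := -R - 1 / 4) (b := -R)).exists_bound_of_continuousOn
    (bk_cd R k).continuous.continuousOn
  refine ⟨max C 1, le_max_right _ _, fun u => ?_⟩
  rcases lt_or_ge u (-R - 1 / 4) with h | h
  · rw [bk_left h]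
    split_ifs <;> simp
  rcases lt_or_ge (-R) u with h' | h'
  · simp [bk_right h']
  · exact (hC u ⟨h, h'⟩).trans (le_max_left _ _)

/-! ### The algebra -/

variable {M R : ℝ} {O : Set E6}

open Classical in
/-- The quadrature, and the value at the anchor. -/
def qO (M R : ℝ) (O : Set E6) (f : Sm (on O)) : Sm (on O) := if h : St M R O then h.qd f else 0

theorem qO_eq (h : St M R O) (f : Sm (on O)) : qO M R O f = h.qd f := dif_pos h

namespace St
variable (h : St M R O)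
include h

theorem qd_alg (z : ℂ) (f : Sm (on O)) : h.qd (algebraMap ℂ _ z * f) = algebraMap ℂ _ z * h.qd f :=
  h.qd_mul (D_alg _ _) f

theorem d_qd (i : Fin 6) (e : 2 ≤ i) (f : Sm (on O)) :
    (hp (on O)).d i (h.qd f) = h.qd ((hp (on O)).d i f) := by
  have z : (v1 i).2.1 = 0 ∧ (v1 i).1 = 0 ∧ (v2 i).2.1 = 0 ∧ (v2 i).1 = 0 := by
    fin_cases i <;> simp [v1, v2] at e ⊢
  rw [hp_d, hp_d, h.qd_add, h.qd_alg, h.qd_alg, h.pd_qd z.1 z.2.1, h.pd_qd z.2.2.1 z.2.2.2]

theorem zd_qd (i : Fin 6) (e : 2 ≤ i) (f : Sm (on O)) :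
    (hp (on O)).z i * (hp (on O)).d i (h.qd f) = h.qd ((hp (on O)).z i * (hp (on O)).d i f) := by
  rw [h.d_qd i e, h.qd_mul]
  rw [P354YK.kO_R h.co, (cone_is h.co).dz, (cone_is h.co).dz, if_neg, if_neg, mul_zero, add_zero]
  all_goals rintro rfl; exact absurd e (by decide)

theorem alg (M' a : ℝ) : Qd (hp _) (pO O M M' a) h.qd ex where
  R := h.R_qd
  H f := by rw [Hp.H_ap, Hp.H_ap, h.qd_add, h.zd_qd 2 (by decide), h.zd_qd 3 (by decide)]
  B f := by rw [Hp.B_ap, Hp.B_ap, h.qd_add, h.zd_qd 4 (by decide), h.zd_qd 5 (by decide)]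
  c f := (h.qd_cj f).symm
  lin := h.qd_alg
  d i f := by rw [hp_d, hp_d, pd_ex, pd_ex]; ring
  ce := cj_ex
  neg := ex_neg

/-- The coefficients of the commutators. -/
def ga (a : Fin 6) : Sm (on O) := ![h.ds (v1 0), 1, 0, 0, 0, 0] a

theorem dir (c : ℝ) (a : Fin 6) : ∃ w, h.Dir (lx O M c a) w ∧ h.ds w = Ibp.rl _ c * h.ga a := by
  have d0 : h.Dir ((hp (on O)).d 0) (v1 0) := fun f => by
    rw [← h.dir_pd (v := v1 0) rfl f, hp_d]; simp [P354XD.d1, P354XD.d2]
  have s : ∀ w, h.ds (c • w) = Ibp.rl _ c * h.ds w := fun w => by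
    rw [ds, pd_smul_dir, map_mul, AlgHom.commutes]; rfl
  have e : h.ds er = 1 := by rw [ds, h.ry.pd_sg, map_one]
  fin_cases a
  · exact ⟨_, d0.smul c, s _⟩
  · exact ⟨_, h.dir_R.smul c, (s _).trans (by rw [e]; rfl)⟩
  all_goals exact ⟨_, h.dir_pd rfl, (h.ds_zero rfl rfl).trans (mul_zero _).symm⟩

theorem lx_qd {c : ℝ} (c0 : c ≠ 0) (a : Fin 6) (f : Sm (on O)) :
    lx O M c a (Ibp.rl _ c⁻¹ * h.qd f) =
      Ibp.rl _ c⁻¹ * h.qd (lx O M c a f) + h.ga a * h.an f := by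
  obtain ⟨w, d, e⟩ := h.dir c a
  have i : Ibp.rl (Sm (on O)) c⁻¹ * Ibp.rl _ c = 1 := by
    rw [Ibp.rl, Ibp.rl, ← map_mul, ← Complex.ofReal_mul, inv_mul_cancel₀ c0]; simp
  rw [D_mul, Ibp.D_rl, d.qd, e]
  linear_combination h.ga a * h.an f * i

theorem lx_an (c : ℝ) (a : Fin 6) (f : Sm (on O)) :
    lx O M c a (h.an f) = h.an (lx O M c a f) - h.ga a * h.an (lx O M c 1 f) := by
  obtain ⟨w, d, e⟩ := h.dir c a
  rw [d.an, e, show lx O M c 1 f = Ibp.rl _ c * RO O M f from rfl, map_mul, Ibp.rl,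
    AlgHom.commutes]
  ring

end St

/-- The scaled derivatives of the anchor function. -/
def bO (O : Set E6) (M R c : ℝ) (k : ℕ) : Sm (on O) := fnO O M fun u _ => c ^ k * bk R k u

theorem sm_bO (R c : ℝ) (k : ℕ) : Sm2 fun u _ => c ^ k * bk R k u :=
  (contDiff_const.mul ((bk_cd R k).comp contDiff_fst)).contDiffOn

theorem lx_bO (h : Cone O) (c : ℝ) (k : ℕ) (a : Fin 6) :
    lx O M c a (bO O M R c k) = if a = 0 then bO O M R c (k + 1) else 0 := by
  have s := sm_bO R c k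
  fin_cases a
  · refine ext_fv h.op fun x hx => ?_
    show fv (Ibp.rl _ c * (hp (on O)).d 0 (bO O M R c k)) x = fv (bO O M R c (k + 1)) x
    rw [fv_mul, P354YK.fv_rl _ hx, bO, fnO_T h s, fv_fnO h s.du hx, bO,
      fv_fnO h (sm_bO R c _) hx, deriv_const_mul_field, bk_deriv]
    push_cast
    ring
  · refine ext_fv h.op fun x hx => ?_
    show fv (Ibp.rl _ c * RO O M (bO O M R c k)) x = fv 0 x
    rw [fv_mul, bO, fnO_R h s, fv_fnO h s.dr hx, fv_zero]
    simp
  all_goals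
    refine ext_fv h.op fun x hx => ?_
    show fv (pd _ (bO O M R c k)) x = fv 0 x
    rw [fv_pd h.op _ _ hx, bO, fd_fnO h s hx, fv_zero]
    simp [v1, v2]

/-! ### The bounds -/

section fam
variable {κ : ℝ} {I : Type} {O P : I → Set E6} {l : I → ℝ} (F : Fm M R κ O P l)
include F

theorem st (i : I) : St M R (O i) := ⟨F.co i, F.star i⟩

theorem os_bO (n k : ℕ) : Os M O P l n 1 fun i => bO (O i) M R (l i) k := by
  refine Oq.stab (F := fun k (j : Σ i, P i) => bO (O j.1) M R (l j.1) k) (fun k => ?_)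
    (fun n h k a => ?_) n k
  · obtain ⟨C, c1, hC⟩ := bk_bd R k
    refine Oq.of1 (B := C ^ 2) fun j => ?_
    rw [q2, bO, fv_fnO (F.co _) (sm_bO R _ k) (F.sub _ j.2.2), Complex.norm_real, Real.norm_eq_abs]
    refine pow_le_pow_left₀ (abs_nonneg _) ?_ 2
    rcases F.flat j.1 with e | e
    · rw [e, one_pow, one_mul]; exact hC _
    · rw [bk_left ((e _ j.2.2).trans_lt (by linarith))]
      split_ifs with k0
      · simpa [k0] using c1
      · simpa using zero_le_one.trans c1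
  · simp only [lx_bO (F.co _)]
    split_ifs
    exacts [h _, Oq.zero]

theorem os_ga (n : ℕ) (a : Fin 6) : Os M O P l n 1 fun i => (st F i).ga a := by
  fin_cases a
  · refine (os_bO F n 0).neg.congr fun j => ext_fv (F.co _).op fun x hx => ?_
    refine ((st F j.1).fv_ds _ hx).trans (Eq.trans ?_ (map_neg (evO ⟨x, hx⟩) _).symm)
    show _ = -fv (bO (O j.1) M R (l j.1) 0) x
    rw [bO, fv_fnO (F.co _) (sm_bO R _ 0) hx]
    simp [v1, bk]
  · exact Oq.one
  all_goals exact Oq.zero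

theorem os_qd {μ : I → ℝ} : ∀ (n : ℕ) {f : ∀ i, Sm (on (O i))}, Os M O P l n μ f →
    (Os M O P l n μ fun i => (st F i).an (f i)) ∧
      Os M O P l n μ fun i => Ibp.rl _ (l i)⁻¹ * (st F i).qd (f i)
  | 0, f, ⟨C, c0, hC⟩ => by
    have an : ∀ i, ∀ x ∈ P i, rp M (be R (uu M x)) x ∈ P i := fun i x hx =>
      F.seg i x hx ⟨_, left_mem_uIcc, rfl⟩
    refine ⟨⟨C, c0, fun j => ?_⟩, Oq.of (B := C * κ ^ 2) fun j => ?_⟩
    · rw [q2, (st F j.1).fv_an _ (F.sub _ j.2.2)]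
      exact hC ⟨j.1, _, an _ _ j.2.2⟩
    · have m := F.sub _ j.2.2
      have l0 : 0 < l j.1 := one_pos.trans_le (F.one _)
      have b := (st F j.1).fv_qd (f j.1) m (c := √(C * μ j.1 ^ 2)) fun y hy =>
        Real.le_sqrt_of_sq_le (hC ⟨j.1, y, F.seg _ _ j.2.2 hy⟩)
      have r1 := (F.rr _ _ j.2.2).2
      have r2 : be R (uu M j.2.1) ≤ κ * l j.1 := (F.rr _ _ (an _ _ j.2.2)).2
      have p1 := ((F.co _).pos _ m).1
      have p2 : 0 < be R (uu M j.2.1) := ((F.co _).pos _ (F.sub _ (an _ _ j.2.2))).1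
      have e : |j.2.1.2.1 - be R (uu M j.2.1)| ≤ κ * l j.1 := abs_le.2 ⟨by linarith, by linarith⟩
      rw [q2, fv_mul, P354YK.fv_rl _ m, norm_mul, Complex.norm_real, Real.norm_eq_abs,
        abs_of_pos (inv_pos.2 l0)]
      refine (pow_le_pow_left₀ (by positivity) (b := √(C * μ j.1 ^ 2) * κ) ?_ 2).trans_eq ?_
      · rw [inv_mul_le_iff₀ l0]
        exact b.trans ((mul_le_mul_of_nonneg_left e (Real.sqrt_nonneg _)).trans_eq (by ring))
      · rw [mul_pow, Real.sq_sqrt (by positivity)]; ring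
  | n + 1, f, h => by
    have a := os_qd n (h.le n.le_succ)
    have d := fun b => os_qd n (f := fun i => lx (O i) M (l i) b (f i)) (h.der b)
    exact ⟨a.1.succ fun b => ((d b).1.sub ((os_ga F n b).mul (d 1).1)).congr fun j =>
        (st F j.1).lx_an _ b _,
      a.2.succ fun b => ((d b).2.add ((os_ga F n b).mul a.1)).congr fun j =>
        (st F j.1).lx_qd (one_pos.trans_le (F.one _)).ne' b _⟩

end fam

/-- QD. -/
theorem qd : QD := fun M R _ =>
  ⟨qO M R, fun O M' a c s => by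
    rw [show qO M R O = _ from funext (qO_eq ⟨c, s⟩)]
    exact St.alg ⟨c, s⟩ M' a,
  fun _ _ _ _ _ F n _ _ h => (os_qd F n h).2.congr fun j =>
    congrArg (_ * ·) (qO_eq (st F j.1) _)⟩

end Vale.Agent.P354FL
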