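import Vale.Agent.P354FL.Fb
import Vale.Agent.P354FL.Main
import Vale.Agent.P354XD.Kd
import Vale.Agent.P354YC.Sig
import Vale.Agent.P354FC.Jwl

/-!
The comparison along a family, and FTWO.
-/

open Set Complex

noncomputable section

namespace Vale.Agent.P354FL

open Vale.Agent.P354XG Vale.Agent.P354XG.Geo Vale.Agent.P354XD Vale.Agent.P354XR Vale.Agent.P354Z
  Vale.Agent.P354XI Vale.Agent.P354F2
open Vale.Agent.P354XE (Tw gin)
open Vale.Agent.P354YO (sh IsTh)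
open Vale.Agent.P354BO (Oq q2_cj)
open Vale.Agent.P354YK (frO gO out cone_is cone_pos)
open Vale.Agent.P354RI (ex pd_ex)
open Vale.Agent.P354YC.Sg (bs_of)

theorem lx_ex (O : Set E6) (M s : ℝ) (b : Fin 6) (f : Sm (on O)) :
    lx O M s b (ex f) = ex f * lx O M s b f := by
  have d : ∀ i, (hp (on O)).d i (ex f) = ex f * (hp _).d i f := fun i => by
    rw [hp_d, hp_d, pd_ex, pd_ex]; ring
  induction b using Fin.cases with
  | zero => rw [lx0, lx0, d]; ring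
  | succ b =>
    induction b using Fin.cases with
    | zero => rw [show (Fin.succ 0 : Fin 6) = 1 from rfl, lx1, lx1, d, d]; ring
    | succ b => rw [lx2, pd_ex]

theorem cn (O : Set E6) {s : ℝ} (hs : s ≠ 0) :
    Cn (hp (on O)).c (Ibp.rl (Sm (on O)) s) (Ibp.rl _ s⁻¹) :=
  ⟨fun D => D_alg D _, (cj_alg _).trans (by rw [conj_ofReal]; rfl), rl_inv hs⟩

/-- The geometry in the scale. -/
abbrev sS (O : Set E6) (g : Tw) (l : ℝ) : Geo (Sm (on O)) := sG (ge O g) (Ibp.rl _ l)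

/-- The roots. -/
def Rt (O : Set E6) (g : Tw) (M0 M a : ℝ) (s u k : Sm (on O)) : Prop :=
  (f1 (hp _) (pO O M0 M a) (ge O g)).E2 (ge O g) s u k ∧ ∀ x ∈ O, 0 ≤ rv s x ∧ 0 ≤ rv k x

theorem wt_dm (i : (Fin 4 × Fin 6) ⊕ Fin 13) :
    i = .inl (0, 0) ∨ i = .inl (1, 0) ∨ dm i = Cn.wt i + 1 := by
  revert i; decide

section fam
variable {M0 R κ : ℝ} {n : ℕ} {I : Type} {O P : I → Set E6} {l d M a : I → ℝ} {g : I → Tw}
  {A B : I → ℝ → ℝ} {s u k : ∀ i, Sm (on (O i))} (h0 : 0 < M0) (fm : Fm M0 R κ O P l)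
  (H : ∀ i, Pre M0 R (O i) (g i) ∧ IsTh M0 (M i) (a i) (A i) (B i) ∧ |a i| < M i ∧
    M i ≤ 5 / 4 * M0 ∧ d i ∈ Icc 0 1 ∧ ∀ x ∈ P i, Jw (n + 2) (l i)
      (g i - P354XE.pb (sh (A i) (B i)) (gin (M i) (a i))) (pj x) (d i / l i))
include h0 fm H

theorem ke (i : I) : (∀ x ∈ O i, VacAt (P354XE.pb (sh (A i) (B i)) (gin (M i) (a i))) (pj x)) ∧
    (ge (O i) (P354XE.pb (sh (A i) (B i)) (gin (M i) (a i)))).g =
      gO (hp _) (pO (O i) M0 (M i) (a i)) :=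
  kb.1 _ _ _ _ _ _ h0 (H i).2.2.1 (H i).2.2.2.1 (fm.co i) (H i).1.rad (H i).2.1

theorem ke_is (i : I) : (ge (O i) (P354XE.pb (sh (A i) (B i)) (gin (M i) (a i)))).Is :=
  geo_is (cone_pos (fm.co i)).off _ (on_of (fm.co i).op (ke h0 fm H i).1)

theorem ke_geo (i : I) : ∃ Γ, ge (O i) (P354XE.pb (sh (A i) (B i)) (gin (M i) (a i))) =
    (hp _).geo (gO (hp _) (pO (O i) M0 (M i) (a i))) Γ := ⟨_, by rw [← (ke h0 fm H i).2]; rfl⟩

theorem par (i : I) : |M i| ≤ 5 / 4 * M0 ∧ |a i| ≤ 5 / 4 * M0 := by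
  have := (H i).2.2
  exact ⟨by rw [abs_of_pos ((abs_nonneg _).trans_lt this.1)]; exact this.2.1,
    this.1.le.trans this.2.1⟩

theorem gn : Gn (O := fun j : Σ i, P i => O j.1) ⟨lX M0 O P l, pX P, fun j => d j.1 / l j.1⟩
    (fun j => hS (O j.1) (l j.1)) (fun j => pS (O j.1) M0 (M j.1) (a j.1) (l j.1))
    (fun j => sS (O j.1) (g j.1) (l j.1)) fun j =>
      sS (O j.1) (P354XE.pb (sh (A j.1) (B j.1)) (gin (M j.1) (a j.1))) (l j.1) where
  mu j := by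
    have := fm.one j.1
    obtain ⟨b1, b2⟩ := (H j.1).2.2.2.2.1
    exact pow_le_one₀ (by positivity) (div_le_one_of_le₀ (b2.trans this) (by positivity))
  mem j := fm.sub _ j.2.2
  bs j := (cn _ (fm_ne fm _)).bs (bs_of (H j.1).1 _ _)
  k0 j := by
    obtain ⟨Γ, e⟩ := ke_geo h0 fm H j.1
    exact ⟨_, by rw [sS, e, ← sK_geo, ← (cn _ (fm_ne fm j.1)).gO]; rfl⟩
  is0 j := Cn.is (cn _ (fm_ne fm _)) (ke_is h0 fm H j.1)
  gz := fm_gz fm
  gp := fm_gp fm (par h0 fm H)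
  d i m ν f b := by
    obtain ⟨c, c1, c2⟩ := (kb.2 _ _ _ _ _ _ _ fm).2.1 i
    exact (Oq.sum _ fun e => Oq.mul (c1 e m) (b.der e)).congr fun j => c2 j.1 (f j)
  c m ν f b := let ⟨C, c0, hC⟩ := b
    ⟨C, c0, fun j => (q2_cj _ _ (lx_cj (fm.co _)) m _).trans_le (hC j)⟩
  xe j := lx_ex _ _ _

theorem mg : Mg (O := fun j : Σ i, P i => O j.1) ⟨lX M0 O P l, pX P, fun j => d j.1 / l j.1⟩ (n + 2)
    (fun j => sS (O j.1) (g j.1) (l j.1)) fun j =>
      sS (O j.1) (P354XE.pb (sh (A j.1) (B j.1)) (gin (M j.1) (a j.1))) (l j.1) :=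
  (gn h0 fm H).mg fun x y => by
    have := (kb.2 _ _ _ _ _ _ _ fm).2.2.2 g
      (fun i => P354XE.pb (sh (A i) (B i)) (gin (M i) (a i))) (n + 2) (fun i => d i / l i)
      (fun i x hx => ⟨let ⟨W, w, m⟩ := (H i).1.lv x hx; ⟨W, w.isOpen, m, w.met, w.vac⟩,
        (ke h0 fm H i).1 x hx⟩) (fun i => (H i).2.2.2.2.2) x y
    exact this

omit h0 H in
theorem e2 (r : ∀ i, Rt (O i) (g i) M0 (M i) (a i) (s i) (u i) (k i)) (i : I) :
    (f1 (hS (O i) (l i)) (pS (O i) M0 (M i) (a i) (l i)) (sS (O i) (g i) (l i))).E2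
      (sS (O i) (g i) (l i)) (s i) (u i) (k i) := by
  have e := (r i).1
  rw [← (cn _ (fm_ne fm i)).f1 (cone_is (fm.co i))] at e
  exact ⟨e.sq, e.re, e.rk, e.hu, e.hk⟩

/-- The roots are close to their values for Kerr. -/
def Sl (O : Set E6) (g : Tw) (M0 M a l : ℝ) (s : Sm (on O)) (x : E6) : Prop :=
  ‖fv ((sS O g l).dot (f1 (hS O l) (pS O M0 M a l) (sS O g l)).m
    (f1 (hS O l) (pS O M0 M a l) (sS O g l)).mb - 1) x‖ ≤ 1 / 4 ∧ ‖fv (s * s - 1) x‖ ≤ 1 / 4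

theorem small (r : ∀ i, Rt (O i) (g i) M0 (M i) (a i) (s i) (u i) (k i)) : ∃ e > 0, ∀ i, d i ≤ e →
    ∀ x ∈ P i, Sl (O i) (g i) M0 (M i) (a i) (l i) (s i) x := by
  obtain ⟨q, ss⟩ := (gn h0 fm H).qs (fun j => e2 fm r j.1) (mg h0 fm H)
  obtain ⟨C1, c1, h1⟩ := q.d.val
  obtain ⟨C2, c2, h2⟩ := ss.d.val
  refine ⟨1 / (4 * (1 + C1 + C2)), by positivity, fun i e x hx => ?_⟩
  have b : d i / l i * (4 * (1 + C1 + C2)) ≤ 1 := (le_div_iff₀ (by positivity)).1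
    ((div_le_self (H i).2.2.2.2.1.1 (fm.one i)).trans e)
  have p : 0 ≤ d i / l i := div_nonneg (H i).2.2.2.2.1.1 (zero_le_one.trans (fm.one i))
  have t : ∀ {y C : ℝ}, 0 ≤ C → C ≤ 1 + C1 + C2 → y ^ 2 ≤ C * (d i / l i) ^ 2 → y ≤ 1 / 4 :=
    fun {y C} c c' w => by
    generalize d i / l i = z at *
    have : C * z ≤ 1 / 4 := by nlinarith
    have : z ≤ 1 / 4 := by nlinarith
    exact (abs_le_of_sq_le_sq' (by nlinarith) (by norm_num)).2
  exact ⟨t c1 (by linarith) (h1 ⟨i, x, hx⟩), t c2 (by linarith) (h2 ⟨i, x, hx⟩)⟩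

theorem core {qd : ∀ O : Set E6, Sm (on O) → Sm (on O)}
    (q1 : ∀ i, Qd (hp _) (pO (O i) M0 (M i) (a i)) (qd (O i)) ex)
    (q2 : ∀ n μ f, Os M0 O P l n μ f → Os M0 O P l n μ fun i => Ibp.rl _ (l i)⁻¹ * qd (O i) (f i))
    (r : ∀ i, Rt (O i) (g i) M0 (M i) (a i) (s i) (u i) (k i))
    (sl : ∀ i, ∀ x ∈ P i, Sl (O i) (g i) M0 (M i) (a i) (l i) (s i) x) (y) :
    Os M0 O P l n (fun i => d i / l i ^ dm y) fun i => dd (O i) (g i) (fr2 (hp _)
      (pO (O i) M0 (M i) (a i)) (ge (O i) (g i)) (qd (O i)) ex (u i) (k i)) M0 (M i) (a i) y := by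
  have G := gn h0 fm H
  have m := mg h0 fm H
  have e := fun j : Σ i, P i => e2 fm r j.1
  have c := fun i => cn (O i) (fm_ne fm i)
  have ki := fun i => cone_is (fm.co i)
  obtain ⟨cu, ck⟩ := G.uk e m (fun j => (r j.1).2 _ (G.mem j)) fun j => sl j.1 _ j.2.2
  have b1 := q2 (n + 1) (fun i => d i / l i) fun i => so (hS (O i) (l i))
    (pS (O i) M0 (M i) (a i) (l i)) (sS (O i) (g i) (l i)) (u i) (k i)
  have b2 := q2 (n + 1) (fun i => d i / l i) fun i => P354F2.sq (hS (O i) (l i))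
    (pS (O i) M0 (M i) (a i) (l i)) (sS (O i) (g i) (l i))
      (fun f => Ibp.rl _ (l i)⁻¹ * qd (O i) f) ex (u i) (k i)
  have b := G.fr2 (qd := fun (j : Σ i, P i) (f : Sm (on (O j.1))) =>
    Ibp.rl (Sm (on (O j.1))) (l j.1)⁻¹ * qd (O j.1) f) e m cu ck b1 b2
  have o := fun j : Σ i, P i => ((G.bs j).fr2_ok ((c j.1).qdr (q1 j.1)) (e j)).1
  have mc := G.mc e m cu ck
  have m0 := m.le (n.le_add_right 2)
  have sc : ∀ i y, dat (hS (O i) (l i)) (pS (O i) M0 (M i) (a i) (l i)) ((fr2 (hS (O i) (l i))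
      (pS (O i) M0 (M i) (a i) (l i)) (sS (O i) (g i) (l i))
      (fun f => Ibp.rl _ (l i)⁻¹ * qd (O i) f) ex (u i) (k i)).ghp (sS (O i) (g i) (l i))) y -
      dat (hS (O i) (l i)) (pS (O i) M0 (M i) (a i) (l i)) ((frO (hS (O i) (l i))
      (pS (O i) M0 (M i) (a i) (l i))).ghp (sS (O i) (P354XE.pb (sh (A i) (B i)) (gin (M i) (a i)))
        (l i))) y = Ibp.rl _ (l i) ^ Cn.wt y * dd (O i) (g i) (fr2 (hp _)
      (pO (O i) M0 (M i) (a i)) (ge (O i) (g i)) (qd (O i)) ex (u i) (k i)) M0 (M i) (a i) y :=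
    fun i y => by
    rw [hS, pS, (c i).fr2 (ki i) ((q1 i).lin _), (c i).frO (ki i), (c i).dat, (c i).dat,
      (kid _ _ _ _ (ki i) (bs_of (H i).1 _ _).pis rfl (ke_geo h0 fm H i)
        (ke_is h0 fm H i)).2.2.2.2.2.2.1, dd, mul_sub]
    rfl
  rcases wt_dm y with rfl | rfl | w
  · refine Oq.zero.congr fun j => sub_eq_zero.2 ?_
    exact congrArg (fun D => cm _ _ D 0) ((bs_of (H j.1).1 _ _).fr2_ok (q1 j.1) (r j.1).1).1.th
  · have a1 : Os M0 O P l n 1 fun i => Ibp.rl _ (l i) ^ 1 * (pS (O i) M0 (M i) (a i) (l i)).a :=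
      (Oq.alg (c := fun j : Σ i, P i => (a j.1 : ℂ)) (B := 5 / 4 * M0) fun j =>
        (norm_real _).le.trans (par h0 fm H j.1).2).congr fun j => by
          beta_reduce
          rw [pow_one]
          exact (mul_assoc _ _ _).symm.trans (by rw [(c j.1).inv, one_mul]; rfl)
    have a2 := oq_pw (fun j : Σ i, P i => fm_ne fm j.1) 1 a1
    have a3 := G.tp0 m0 mc b o (fun j => by
      obtain ⟨b1, b2⟩ := (H j.1).2.2.2.2.1
      have := fm.one j.1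
      show (d j.1 / l j.1) ^ 2 ≤ (1 / l j.1 ^ 1) ^ 2
      rw [pow_one]
      gcongr) a2
    exact (a3.wt fun j => (congrArg (· ^ 2)
      (by simp [dm, div_eq_mul_inv, pow_two, mul_assoc])).le).congr
        fun j => ((sc j.1 _).trans (one_mul _)).symm
  · have a1 := (G.dat m0 mc b y).d.congr fun j : Σ i, P i => (sc j.1 y).symm
    exact (oq_pw (fun j : Σ i, P i => fm_ne fm j.1) (Cn.wt y) a1).wt fun j => by
      simp only [w, pow_succ' (l j.1), ← div_div, le_refl]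

end fam

theorem fam {M0 R : ℝ} (h0 : 0 < M0) {qd : ∀ O : Set E6, Sm (on O) → Sm (on O)}
    (q1 : ∀ O M' a, Cone O → (∀ x ∈ O, Seg M0 R x ⊆ O) → Qd (hp _) (pO O M0 M' a) (qd O) ex)
    (q2 : ∀ (κ : ℝ) (I : Type) (O P : I → Set E6) (l : I → ℝ), Fm M0 R κ O P l → ∀ n μ f,
      Os M0 O P l n μ f → Os M0 O P l n μ fun i => Ibp.rl _ (l i)⁻¹ * qd (O i) (f i))
    {F : ∀ O : Set E6, Tw → ℝ → ℝ → Fr (Sm (on O))}
    (hF : ∀ O g M a, Pre M0 R O g → ∃ s u k, Rt O g M0 M a s u k ∧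
      F O g M a = fr2 (hp _) (pO O M0 M a) (ge O g) (qd O) ex u k) : FAM M0 R F := by
  intro n κ I O P l d M a g A B fm H
  choose s u k r e using fun i => hF (O i) (g i) (M i) (a i) (H i).1
  obtain ⟨ε, p, sl⟩ := small h0 fm H r
  have fm' : Fm M0 R κ (fun i : {i // d i ≤ ε} => O i) (fun i => P i) fun i => l i :=
    ⟨fun i => fm.co i, fun i => fm.star i, fun i => fm.sub i, fun i => fm.seg i, fun i => fm.an i,
      fun i => fm.one i, fun i => fm.rr i, fun i => fm.flat i⟩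
  have c := core h0 fm' (fun i => H i) (fun i => q1 _ _ _ (fm.co i) (fm.star i))
    (q2 _ _ _ _ _ fm') (fun i => r i) fun i => sl i i.2
  choose C c0 hC using fun y => fm_ll fm' (fun i => M i) (fun i => a i) (c y)
  choose D d0 hD using fun y => fm_lt fm' (fun i => M i) (fun i => a i) (c y)
  have t : ∀ y, C y + D y ≤ (1 + ∑ y, (C y + D y)) ^ 2 := fun y => by
    have := Finset.single_le_sum (f := fun y => C y + D y)
      (fun y _ => add_nonneg (c0 y) (d0 y)) (Finset.mem_univ y)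
    nlinarith [add_nonneg (c0 y) (d0 y)]
  refine ⟨ε, p, 1 + ∑ y, (C y + D y), fun i hi x hx y => ⟨?_, fun w => ?_⟩⟩
  · rw [e, mul_div_assoc, mul_pow]
    exact (hC y ⟨⟨i, hi⟩, x, hx⟩).trans
      (mul_le_mul_of_nonneg_right (by linarith [t y, d0 y]) (sq_nonneg _))
  · rw [e, mul_pow]
    refine (hD y ⟨⟨i, hi⟩, x, hx⟩).trans ?_
    simp only [w, one_pow, div_one]
    exact mul_le_mul_of_nonneg_right (by linarith [t y, c0 y]) (sq_nonneg _)

/-- FTWO from the bound for the metric of the collar. -/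
theorem ftwo (J : JWL) : FTWO := fun M0 a0 R h hR => by
  classical
  have h0 : 0 < M0 := (abs_nonneg _).trans_lt h
  obtain ⟨qd, q1, q2⟩ := P354FL.qd M0 R (by linarith)
  choose s u k r using P354YC.sig M0 R
  let F : ∀ O : Set E6, Tw → ℝ → ℝ → Fr (Sm (on O)) := fun O g M a =>
    if e : Pre M0 R O g then fr2 (hp _) (pO O M0 M a) (ge O g) (qd O) ex (u M a O g e) (k M a O g e)
    else ⟨0, 0, 0, 0⟩
  have f : FAM M0 R F := fam h0 q1 q2 fun O g M a e => ⟨_, _, _, r M a O g e, dif_pos e⟩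
  refine ⟨F, fun O g M a e => ?_, ntw P354RI.core_ok _ _ _ _ h hR f,
    laf P354RI.core_ok J _ _ _ _ h hR f⟩
  obtain ⟨o, t⟩ := (bs_of e M a).fr2_ok (q1 O M a e.co e.star) (r M a O g e).1
  rw [show F O g M a = _ from dif_pos e]
  exact ⟨o.wn, o.th, o.ka, t, o.lT⟩

theorem ftwo_ok : FTWO := ftwo P354FC.jwl

end Vale.Agent.P354FL
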