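import Vale.Agent.P354FL.Fa

/-!
The data of a frame which is close to the frame of Kerr.
-/

namespace Vale.Agent.P354FL

open Vale.Agent.P354XG Vale.Agent.P354XG.Geo Vale.Agent.P354XD Vale.Agent.P354XR Vale.Agent.P354Z
  Vale.Agent.P354XI Vale.Agent.P354F2
open Vale.Agent.P354BO (Oq Gz Gp oq_e0)
open Vale.Agent.P354YK (frO gO out la Og)

theorem f4_z0 {A : Type} [CommRing A] [Algebra ℂ A] {K : Hp A} {S : Geo A} (k : K.Is)
    (e : ∃ g Γ, S = K.geo g Γ) (F : Fr A) (a : Fin 4) :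
    f4 (F.ghp S) a (K.z 0) = ![F.l, F.n, F.m, F.mb] a 0 := by
  obtain ⟨g, Γ, rfl⟩ := e
  rw [show K.z 0 = K.co 0 by simp [Hp.co, Hp.e0, Hp.om]]
  fin_cases a <;> exact congrFun (k.prj_act g Γ _) 0

variable {J ι : Type} [Fintype ι] {O : J → Set E6} {E : Ev ι O} {K : ∀ j, Hp (Sm (on (O j)))}
  {p : ∀ j, Pm (Sm (on (O j)))} {S S0 : ∀ j, Geo (Sm (on (O j)))} {n : ℕ}
  {F : ∀ j, Fr (Sm (on (O j)))}

namespace Gn
variable (h : Gn E K p S S0) (m : Mg E n S S0) (c : Mc E (n + 1) S S0)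
  (b : Cl E (n + 1) F fun j => frO (K j) (p j))
include h m c b

theorem f4z (a : Fin 4) (i : Fin 6) : Cg E n (fun j => f4 ((F j).ghp (S j)) a ((K j).z i))
    fun j => f4 ((frO (K j) (p j)).ghp (S0 j)) a ((K j).z i) := by
  have z := h.gz (n + 1)
  have b0 := b.le n.le_succ
  have t := fun {f} (k : Oq E.X E.x (n + 1) 1 f) => h.st.f4 m c b a (.refl k)
  fin_cases i
  · refine Cg.tw (Cg.fr ?_ fun j => f4_z0 (h.bs j).is (h.bs j).geo _ a) fun j =>
      (f4_z0 (h.bs j).is (let ⟨Γ, e⟩ := h.k0 j; ⟨_, Γ, e⟩) _ a).symm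
    fin_cases a
    exacts [b0.l 0, b0.n 0, b0.m 0, b0.mb 0]
  exacts [t z.z1, t z.z2, t z.z3, t z.z4, t z.z5]

theorem dat (i : (Fin 4 × Fin 6) ⊕ Fin 13) :
    Cg E n (fun j => dat (K j) (p j) ((F j).ghp (S j)) i)
      fun j => dat (K j) (p j) ((frO (K j) (p j)).ghp (S0 j)) i := by
  rcases i with ⟨a, e⟩ | i
  · have d := h.f4z m c b a
    have z := h.gz n
    have j := (d 1).mul (.refl (h.gp n).j1)
    have ni := Cg.refl z.Ni
    have z2 := Cg.refl z.z2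
    have z3 := Cg.refl z.z3
    have z4 := Cg.refl z.z4
    have z5 := Cg.refl z.z5
    fin_cases e
    exacts [(d 0).add ((d 1).mul (.refl (h.gp n).h1)), d 1,
      (ni.mul ((z2.mul (d 3)).sub (z3.mul (d 2)))).add (j.mul (.refl (Oq.ii.mul z.kc.2.1))),
      (ni.mul ((z4.mul (d 5)).sub (z5.mul (d 4)))).sub (j.mul (.refl (Oq.ii.mul z.kc.2.2.1))),
      (ni.mul ((z4.mul (d 2)).add (z5.mul (d 3)))).sub (j.mul (.refl (Oq.ii.mul z.kc.1))),
      (ni.mul ((z2.mul (d 4)).add (z3.mul (d 5)))).add (j.mul (.refl (Oq.ii.mul z.kc.1)))]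
  · exact h.st.sc m c b i

/-- The component of n along T gains one power. -/
theorem tp0 {ν : J → ℝ} (o : ∀ j, Og (K j) (p j) (S j) (F j)) (w : ∀ j, E.μ j ^ 2 ≤ ν j ^ 2)
    (a : Oq E.X E.x n ν fun j => (p j).a) : Oq E.X E.x n (E.μ * ν) fun j =>
      P354Z.dat (K j) (p j) ((F j).ghp (S j)) (.inl (1, 0)) -
        P354Z.dat (K j) (p j) ((frO (K j) (p j)).ghp (S0 j)) (.inl (1, 0)) := by
  have z := h.gz n
  have l := (b.le n.le_succ).l
  have ni := (Cg.refl Oq.two).mul (.refl z.Ni)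
  have l0 := (ni.mul (m.dot l (Y := fun j => (K j).prj (K j).P) (Y' := fun j => (K j).prj (K j).P)
    fun e => .refl ((z.z1.mul (z.om e).2.2).congr fun j => ((h.bs j).is.tco e).2.2.1))).neg.d
  have l1 := (ni.mul (m.dot l (Y := fun j => (K j).prj (K j).Q) (Y' := fun j => (K j).prj (K j).Q)
    fun e => .refl ((z.z1.mul (z.om e).2.1).congr fun j => ((h.bs j).is.tco e).2.2.2.1))).neg.d
  have d2 := (h.dat m c b (.inl (1, 2))).d
  have d3 := (h.dat m c b (.inl (1, 3))).d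
  have s := (Oq.ii.mul a).mull z.kc.2.1
  have sb := (Oq.ii.mul a).mull z.kc.2.2.1
  have g := (h.gp n).sg
  refine (((l0.mul' ((d2.wt w).add ((s.mull z.Ni).mull g))).add (d2.mul' sb)).add
    ((l1.mul' ((d3.wt w).sub ((sb.mull z.Ni).mull g))).sub (d3.mul' s))).neg.congr fun j => ?_
  obtain ⟨-, -, -, -, -, -, G, o0, a0, a1, t2, t3⟩ := h.kid j
  have x := (o j).la_n
  have y := o0.la_n
  have N := (h.bs j).is.hN
  simp only [P354Z.dat, Sum.elim_inl, f4, Matrix.cons_val, G, la] at x y a0 a1 ⊢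
  rw [a0, a1, t2, t3] at y
  rw [a0, a1, t2, t3]
  generalize cm (K j) (p j) ((F j).ghp (S j)).tp = u at *
  generalize (S j).dot (F j).l = v at *
  linear_combination (K j).Ni * (x - y) - (u 0 - cm (K j) (p j) (out (kk (K j) (p j))).tp 0 -
    2 * (K j).Ni * v ((K j).prj (K j).P) * u 2 - 2 * (K j).Ni * v ((K j).prj (K j).Q) * u 3 -
    2 * (ii _ * (p j).a * (K j).kc.sb) * (ii _ * (p j).a * (K j).kc.s * (K j).Ni * (p j).sg)) * N

end Gn

end Vale.Agent.P354FL
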