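import Vale.Agent.P354F2.Defs
import Vale.Agent.P354YK.Quad
import Vale.Agent.P354YK.Ray
import Vale.Agent.P354BO.Oq

/-!
The quadrature along the outgoing rays, from the anchors.
-/

open scoped ContDiff
open Set Filter Topology

noncomputable section

namespace Vale.Agent.P354FL

open Vale.Agent.P354XG Vale.Agent.P354XD Vale.Agent.P354XR Vale.Agent.P354XI Vale.Agent.P354Z
open Vale.Agent.P354YK (Ry fv_rs fv_R cone_is)
open Vale.Agent.P354F2 (be rp Seg RO)

/-- The shear of the time. -/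
def sk (m : ℝ) (x : E6) : E6 := (x.1 + m / x.2.1, x.2)

theorem sk_neg (m : ℝ) (x : E6) : sk (-m) (sk m x) = x := by simp [sk, neg_div]
theorem neg_sk (m : ℝ) (x : E6) : sk m (sk (-m) x) = x := by simp [sk, neg_div]

theorem sk_cd (m : ℝ) {x : E6} (h : x.2.1 ≠ 0) : ContDiffAt ℝ ∞ (sk m) x :=
  (contDiffAt_fst.add (contDiffAt_const.div contDiffAt_snd.fst h)).prodMk contDiffAt_snd

theorem sk_fd (m : ℝ) {x : E6} (h : x.2.1 ≠ 0) (v : E6) :
    fderiv ℝ (sk m) x v = (v.1 - m / x.2.1 ^ 2 * v.2.1, v.2) := by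
  have d := ((hasFDerivAt_fst (𝕜 := ℝ) (p := x)).add (((hasDerivAt_inv h).const_mul m).comp_hasFDerivAt
    x (hasFDerivAt_snd (𝕜 := ℝ) (p := x)).fst)).prodMk (hasFDerivAt_snd (𝕜 := ℝ) (p := x))
  have e : fderiv ℝ (sk m) x = _ :=
    (d.congr_of_eventuallyEq (Eventually.of_forall fun y => by simp [sk, div_eq_mul_inv])).fderiv
  rw [e]
  simp [div_eq_mul_inv]
  ring

section mp
variable {O1 O2 : Set E6} {m : ℝ} (o1 : IsOpen O1) (r : ∀ x ∈ O1, x.2.1 ≠ 0)
  (h : MapsTo (sk m) O1 O2)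
include o1 r h

theorem mp_sk : Mp ⊤ (fun _ : Unit => O1) (fun _ => O2) fun p => sk m p.2 :=
  ⟨on_of o1 fun x hx => sk_cd m (r x hx), Eventually.of_forall fun _ _ hx => h hx⟩

theorem fv_sk (f : Sm (on O2)) {x : E6} (hx : x ∈ O1) :
    fv ((mp_sk o1 r h).pb f) x = fv f (sk m x) :=
  (fv_rs ((mp_sk o1 r h).rep_pb f) hx).trans (fv_in f (h hx)).symm

theorem fv_pd_sk (o2 : IsOpen O2) (f : Sm (on O2)) (v : E6) {x : E6} (hx : x ∈ O1) :
    fv (pd v ((mp_sk o1 r h).pb f)) x =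
      fderiv ℝ (fv f) (sk m x) (v.1 - m / x.2.1 ^ 2 * v.2.1, v.2) := by
  have e : fv ((mp_sk o1 r h).pb f) =ᶠ[𝓝 x] fv f ∘ sk m :=
    (o1.eventually_mem hx).mono fun y hy => fv_sk o1 r h f hy
  rw [fv_pd o1 _ _ hx, e.fderiv_eq, fderiv_comp x ((fv_sm o2 f (h hx)).differentiableAt (by simp))
    ((sk_cd m (r x hx)).differentiableAt (by simp)), ContinuousLinearMap.comp_apply,
    sk_fd m (r x hx)]

end mp

theorem be_cd (R : ℝ) : ContDiff ℝ ∞ (be R) :=
  contDiff_const.add ((contDiff_neg.sub contDiff_const).mul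
    (Real.smoothTransition.contDiff.comp (contDiff_const.mul (contDiff_neg.sub contDiff_const))))

/-- Cones which are star shaped with respect to the anchors. -/
structure St (M R : ℝ) (O : Set E6) : Prop where
  co : Cone O
  star : ∀ x ∈ O, Seg M R x ⊆ O

/-- The radial direction, and the distance to the anchor in the straight chart. -/
def er : E6 := (0, 1, 0)
def sg (R : ℝ) (p : Unit × E6) : ℝ := p.2.2.1 - be R p.2.1

theorem sg_fd (R : ℝ) (x v : E6) :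
    fderiv ℝ (fun y => sg R ((), y)) x v = v.2.1 - deriv (be R) x.1 * v.1 := by
  have d := (hasFDerivAt_snd (𝕜 := ℝ) (p := x)).fst.sub
    (((be_cd R).differentiable (by simp) x.1).hasDerivAt.comp_hasFDerivAt x
      (hasFDerivAt_fst (𝕜 := ℝ) (p := x)))
  have e : fderiv ℝ (fun y => sg R ((), y)) x = _ := d.fderiv
  rw [e]
  simp

/-- The straight cone. -/
def Oz (M : ℝ) (O : Set E6) : Set E6 := sk (-(4 * M ^ 2)) ⁻¹' O

theorem rp_sk (M s : ℝ) (y : E6) :
    rp M s (sk (-(4 * M ^ 2)) y) = sk (-(4 * M ^ 2)) (y.1, s, y.2.2) := by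
  simp [rp, sk, uu, neg_div, sub_eq_add_neg]

theorem rp_eq (M s : ℝ) (x : E6) : rp M s x = sk (-(4 * M ^ 2)) (uu M x, s, x.2.2) := by
  simp [rp, sk, neg_div, sub_eq_add_neg]

namespace St
variable {M R : ℝ} {O : Set E6} (h : St M R O)
include h

theorem r0 : ∀ x ∈ O, x.2.1 ≠ 0 := fun x hx => (h.co.pos x hx).1.ne'
theorem r1 : ∀ x ∈ Oz M O, x.2.1 ≠ 0 := fun x hx => h.r0 (sk _ x) hx

theorem op : IsOpen (Oz M O) := isOpen_iff_mem_nhds.2 fun x hx =>
  (sk_cd _ (h.r1 x hx)).continuousAt.preimage_mem_nhds (h.co.op.mem_nhds hx)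

omit h in
theorem mo : MapsTo (sk (4 * M ^ 2)) O (Oz M O) := fun x hx => by
  rwa [Oz, mem_preimage, sk_neg]

/-- The passage to the straight chart, and back. -/
def pi : Sm (on O) →ₐ[ℂ] Sm (on (Oz M O)) := (mp_sk (O2 := O) h.op h.r1 fun _ hx => hx).pb
def po : Sm (on (Oz M O)) →ₐ[ℂ] Sm (on O) := (mp_sk h.co.op h.r0 mo).pb

theorem fv_pi (f : Sm (on O)) {x : E6} (hx : x ∈ Oz M O) :
    fv (h.pi f) x = fv f (sk (-(4 * M ^ 2)) x) := fv_sk h.op h.r1 (fun _ hx => hx) f hx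
theorem fv_po (f : Sm (on (Oz M O))) {x : E6} (hx : x ∈ O) :
    fv (h.po f) x = fv f (sk (4 * M ^ 2) x) := fv_sk h.co.op h.r0 mo f hx

theorem pi_po (f : Sm (on (Oz M O))) : h.pi (h.po f) = f :=
  ext_fv h.op fun x hx => by rw [h.fv_pi _ hx, h.fv_po _ hx, neg_sk]
theorem po_pi (f : Sm (on O)) : h.po (h.pi f) = f :=
  ext_fv h.co.op fun x hx => by rw [h.fv_po _ hx, h.fv_pi _ (mo hx), sk_neg]

theorem ry : Ry ⊤ (fun _ : Unit => Oz M O) er (sg R) where
  sm := Eventually.of_forall fun _ =>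
    (contDiff_snd.fst.sub ((be_cd R).comp contDiff_fst)).contDiffAt
  dv := Eventually.of_forall fun p => (sg_fd R p.2 er).trans (by simp [er])
  st := Eventually.of_forall fun _ y hy s hs => by
    refine h.star _ hy ⟨y.2.1 - (1 - s) * sg R ((), y), ?_, ?_⟩
    · rw [show uu M (sk (-(4 * M ^ 2)) y) = y.1 by simp [uu, sk, neg_div], ← segment_eq_uIcc]
      exact ⟨1 - s, s, sub_nonneg.2 hs.2, hs.1, by ring, by simp [sg, sk]; ring⟩
    · beta_reduce
      rw [rp_sk]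
      simp [er, Prod.ext_iff, sk]

/-- The integral from the anchor, the value at the anchor, and the distance to the anchor. -/
def qd (f : Sm (on O)) : Sm (on O) := h.po (h.ry.qd (h.pi f))
def an : Sm (on O) →ₐ[ℂ] Sm (on O) := h.po.comp (h.ry.an.comp h.pi)
def ds (w : E6) : Sm (on O) := h.po (pd w h.ry.sg)

/-- The derivation D is the derivative in the direction w of the straight chart. -/
def Dir (D : Der (Sm (on O))) (w : E6) : Prop := ∀ f, h.pi (D f) = pd w (h.pi f)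

theorem dir_pd {v : E6} (e : v.2.1 = 0) : h.Dir (pd v) v := fun f =>
  ext_fv h.op fun x hx => by
    rw [h.fv_pi _ hx, fv_pd h.co.op _ _ hx]
    exact ((fv_pd_sk h.op h.r1 (fun _ hx => hx) h.co.op f v hx).trans
      (by rw [e, mul_zero, sub_zero])).symm

theorem dir_R : h.Dir (RO O M) er := fun f =>
  ext_fv h.op fun x hx => by
    rw [h.fv_pi _ hx, fv_R h.co _ _ _ _ hx]
    exact ((fv_pd_sk h.op h.r1 (fun _ hx => hx) h.co.op f er hx).trans
      (by simp [er, sk, neg_div])).symm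

variable {h} {D : Der (Sm (on O))} {w : E6}

theorem Dir.po (d : h.Dir D w) (f : Sm (on (Oz M O))) : D (h.po f) = h.po (pd w f) := by
  rw [← h.po_pi (D _), d, h.pi_po]

theorem Dir.smul (d : h.Dir D w) (c : ℝ) :
    h.Dir (algebraMap ℂ (Sm (on O)) c • D) (c • w) := fun f => by
  rw [Derivation.smul_apply, smul_eq_mul, map_mul, AlgHom.commutes, d, pd_smul_dir]

theorem Dir.qd (d : h.Dir D w) (f : Sm (on O)) :
    D (h.qd f) = h.qd (D f) + h.ds w * h.an f := by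
  rw [St.qd, d.po, h.ry.pd_qd, map_add, map_mul, ← d]; rfl

theorem Dir.an (d : h.Dir D w) (f : Sm (on O)) :
    D (h.an f) = h.an (D f) - h.ds w * h.an (RO O M f) := by
  show D (h.po (h.ry.an (h.pi f))) = _
  rw [d.po, h.ry.pd_an, map_sub, map_mul, ← d, ← h.dir_R]; rfl

variable (h)

theorem fv_ds (w : E6) {x : E6} (hx : x ∈ O) :
    fv (h.ds w) x = (w.2.1 - deriv (be R) (uu M x) * w.1 : ℝ) := by
  rw [ds, h.fv_po _ hx, fv_rs (h.ry.rs_pd_sg w) (mo hx)]
  exact congrArg _ (sg_fd R _ w)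

theorem ds_zero {w : E6} (e : w.2.1 = 0) (e' : w.1 = 0) : h.ds w = 0 :=
  ext_fv h.co.op fun x hx => by rw [h.fv_ds w hx, fv_zero, e, e']; simp

theorem R_qd (f : Sm (on O)) : RO O M (h.qd f) = f := by
  rw [qd, h.dir_R.po, ← h.po_pi f, h.pi_po, h.ry.pd_qd_v]

theorem R_an (f : Sm (on O)) : RO O M (h.an f) = 0 := by
  show RO O M (h.po (h.ry.an (h.pi f))) = _
  rw [h.dir_R.po, h.ry.pd_an_v, map_zero]

theorem qd_add (f g : Sm (on O)) : h.qd (f + g) = h.qd f + h.qd g := by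
  simp only [qd, map_add, h.ry.qd_add]

theorem qd_cj (f : Sm (on O)) : h.qd (cj f) = cj (h.qd f) := by
  rw [qd, qd, pi, Mp.pb_cj, h.ry.qd_cj, po, Mp.pb_cj]

theorem qd_mul {c : Sm (on O)} (e : RO O M c = 0) (f : Sm (on O)) :
    h.qd (c * f) = c * h.qd f := by
  rw [qd, map_mul, h.ry.qd_mul (by rw [← h.dir_R, e, map_zero]), map_mul, h.po_pi, qd]

theorem qd_R (f : Sm (on O)) : h.qd (RO O M f) = f - h.an f := by
  rw [qd, h.dir_R, h.ry.qd_pd, map_sub, h.po_pi]; rfl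

theorem an_qd (f : Sm (on O)) : h.an (h.qd f) = 0 := by
  show h.po (h.ry.an (h.pi (h.po _))) = _
  rw [h.pi_po, h.ry.an_qd, map_zero]

theorem fv_an (f : Sm (on O)) {x : E6} (hx : x ∈ O) :
    fv (h.an f) x = fv f (rp M (be R (uu M x)) x) := by
  have m : rp M (be R (uu M x)) x ∈ O := h.star x hx ⟨_, left_mem_uIcc, rfl⟩
  rw [rp_eq] at m ⊢
  show fv (h.po (h.ry.an (h.pi f))) x = _
  rw [h.fv_po _ hx, fv_rs (h.ry.rs_an (rs_rep _)) (mo hx), ← h.fv_pi f m, fv_in (h.pi f) m]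
  refine congrArg (fun y => rep (h.pi f) ((), y)) ?_
  simp [sk, sg, er, uu, Prod.ext_iff]

theorem pd_qd {v : E6} (e : v.2.1 = 0) (e' : v.1 = 0) (f : Sm (on O)) :
    pd v (h.qd f) = h.qd (pd v f) := by
  rw [(h.dir_pd e).qd, h.ds_zero e e', zero_mul, add_zero]

/-- The bound of the integral. -/
theorem fv_qd (f : Sm (on O)) {x : E6} (hx : x ∈ O) {c : ℝ} (b : ∀ y ∈ Seg M R x, ‖fv f y‖ ≤ c) :
    ‖fv (h.qd f) x‖ ≤ c * |x.2.1 - be R (uu M x)| := by
  have m : ∀ s ∈ uIcc (be R (uu M x)) x.2.1, rp M s x ∈ O := fun s k => h.star x hx ⟨s, k, rfl⟩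
  have d : ∀ s ∈ uIcc (be R (uu M x)) x.2.1,
      HasDerivAt (fun s => fv (h.qd f) (rp M s x)) (fv f (rp M s x)) s := fun s k => by
    have := P354YK.fv_ray (y := x) h.co M 0 (h.qd f) (m s k)
    rwa [show (kO O M M 0).R (h.qd f) = f from h.R_qd f] at this
  have z : fv (h.qd f) (rp M (be R (uu M x)) x) = 0 := by rw [← h.fv_an _ hx, h.an_qd, fv_zero]
  have := (convex_uIcc _ _).norm_image_sub_le_of_norm_hasDerivWithin_le
    (fun s k => (d s k).hasDerivWithinAt) (fun s k => b _ ⟨s, k, rfl⟩) left_mem_uIcc right_mem_uIcc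
  rwa [z, sub_zero, show rp M x.2.1 x = x from P354YK.ray_self M x] at this

end St

end Vale.Agent.P354FL
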